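import Mathlib
import Vale.Agent.Lib.P142.Main
import Vale.Agent.Lib.P142.General

namespace Vale.Agent.Results.P142.BazilevicBoth

/-- Brennan integrability for Bazilevic functions, the two statements of this folder in one.
Throughout `g = z exp ψ` is starlike (`Re (1 + z ψ') > 0`) and `f = z exp φ`.

1. Type `α ≥ 1`: if `Re ((z f' / f) (f / g) ^ α) > 0` on the unit disc, then `|f'| ^ t` is
   area integrable over the disc for every `-2 < t ≤ 0`.
2. Type `(α, β)`, `α > 0`: if `Re ((z f' / f) (f / z) ^ (α + i β) (z / g) ^ α) > 0` on the unit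
   disc and `|f z / z|` is bounded below on the disc, then `|f'| ^ t` is area integrable over
   the disc for every `-2 < t ≤ 0`.

These are the statements of the hand-ins `BazilevicBrennan` and `BazilevicGrowth`. -/
theorem result :
    (∀ (α : ℝ), 1 ≤ α → ∀ (φ ψ : ℂ → ℂ),
      DifferentiableOn ℂ φ (Metric.ball 0 1) →
      DifferentiableOn ℂ ψ (Metric.ball 0 1) →
      (∀ z ∈ Metric.ball (0 : ℂ) 1, 0 < (1 + z * deriv ψ z).re) →
      (∀ z ∈ Metric.ball (0 : ℂ) 1,
        0 < ((1 + z * deriv φ z) * Complex.exp (α * (φ z - ψ z))).re) →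
      ∀ (t : ℝ), -2 < t → t ≤ 0 →
      MeasureTheory.IntegrableOn
        (fun z : ℂ => ‖deriv (fun w : ℂ => w * Complex.exp (φ w)) z‖ ^ t)
        (Metric.ball (0 : ℂ) 1) MeasureTheory.volume) ∧
    (∀ (α β : ℝ), 0 < α → ∀ (φ ψ : ℂ → ℂ),
      DifferentiableOn ℂ φ (Metric.ball 0 1) →
      DifferentiableOn ℂ ψ (Metric.ball 0 1) →
      (∀ z ∈ Metric.ball (0 : ℂ) 1, 0 < (1 + z * deriv ψ z).re) →
      (∀ z ∈ Metric.ball (0 : ℂ) 1,
        0 < ((1 + z * deriv φ z) *
          Complex.exp (((α : ℂ) + β * Complex.I) * φ z - α * ψ z)).re) →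
      ∀ (c : ℝ), 0 < c →
      (∀ z ∈ Metric.ball (0 : ℂ) 1, c ≤ ‖Complex.exp (φ z)‖) →
      ∀ (t : ℝ), -2 < t → t ≤ 0 →
      MeasureTheory.IntegrableOn
        (fun z : ℂ => ‖deriv (fun w : ℂ => w * Complex.exp (φ w)) z‖ ^ t)
        (Metric.ball (0 : ℂ) 1) MeasureTheory.volume) :=
  ⟨fun _ hα _ _ hφ hψ hstar hbaz _ ht ht0 =>
      Vale.Agent.Lib.P142.bazilevic_integrable hα hφ hψ hstar hbaz ht ht0,
    fun _ _ hα _ _ hφ hψ hstar hbaz _ hc hgrow _ ht ht0 =>
      Vale.Agent.Lib.P142.bazilevic_general_integrable hα hφ hψ hstar hbaz hc hgrow ht ht0⟩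

end Vale.Agent.Results.P142.BazilevicBoth
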