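import Mathlib
import Vale.Agent.Lib.P142.Main

namespace Vale.Agent.Results.P142.BazilevicBrennan

/-- Brennan integrability for Bazilevic functions of type `α ≥ 1`:
if `g = z exp ψ` is starlike and `f = z exp φ` satisfies
`Re ((z f' / f) (f / g) ^ α) > 0` on the unit disc, then `|f'| ^ t` is area integrable
over the disc for every `-2 < t ≤ 0`. -/
theorem result (α : ℝ) (hα : 1 ≤ α) (φ ψ : ℂ → ℂ)
    (hφ : DifferentiableOn ℂ φ (Metric.ball 0 1))
    (hψ : DifferentiableOn ℂ ψ (Metric.ball 0 1))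
    (hstar : ∀ z ∈ Metric.ball (0 : ℂ) 1, 0 < (1 + z * deriv ψ z).re)
    (hbaz : ∀ z ∈ Metric.ball (0 : ℂ) 1,
      0 < ((1 + z * deriv φ z) * Complex.exp (α * (φ z - ψ z))).re)
    (t : ℝ) (ht : -2 < t) (ht0 : t ≤ 0) :
    MeasureTheory.IntegrableOn
      (fun z : ℂ => ‖deriv (fun w : ℂ => w * Complex.exp (φ w)) z‖ ^ t)
      (Metric.ball (0 : ℂ) 1) MeasureTheory.volume :=
  Vale.Agent.Lib.P142.bazilevic_integrable hα hφ hψ hstar hbaz ht ht0

end Vale.Agent.Results.P142.BazilevicBrennan
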