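import Mathlib
import Vale.Agent.Lib.P142.General

namespace Vale.Agent.Results.P142.BazilevicGrowth

/-- Brennan integrability for general Bazilevic functions of type `(α, β)`, `α > 0`:
if `g = z exp ψ` is starlike, `f = z exp φ` satisfies
`Re ((z f' / f) (f / z) ^ (α + i β) (z / g) ^ α) > 0` on the unit disc and `|f z / z|` is
bounded below on the disc, then `|f'| ^ t` is area integrable over the disc for every
`-2 < t ≤ 0`. -/
theorem result (α β : ℝ) (hα : 0 < α) (φ ψ : ℂ → ℂ)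
    (hφ : DifferentiableOn ℂ φ (Metric.ball 0 1))
    (hψ : DifferentiableOn ℂ ψ (Metric.ball 0 1))
    (hstar : ∀ z ∈ Metric.ball (0 : ℂ) 1, 0 < (1 + z * deriv ψ z).re)
    (hbaz : ∀ z ∈ Metric.ball (0 : ℂ) 1,
      0 < ((1 + z * deriv φ z) *
        Complex.exp (((α : ℂ) + β * Complex.I) * φ z - α * ψ z)).re)
    (c : ℝ) (hc : 0 < c)
    (hgrow : ∀ z ∈ Metric.ball (0 : ℂ) 1, c ≤ ‖Complex.exp (φ z)‖)
    (t : ℝ) (ht : -2 < t) (ht0 : t ≤ 0) :
    MeasureTheory.IntegrableOn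
      (fun z : ℂ => ‖deriv (fun w : ℂ => w * Complex.exp (φ w)) z‖ ^ t)
      (Metric.ball (0 : ℂ) 1) MeasureTheory.volume :=
  Vale.Agent.Lib.P142.bazilevic_general_integrable hα hφ hψ hstar hbaz hc hgrow ht ht0

end Vale.Agent.Results.P142.BazilevicGrowth
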